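-- RD-BASE f3b7f2fe1f8ce6b3a4bf368b82d733099886346c
import Vale.Agent.P028.MathlibUsed
import Vale.Agent.P028.RD.H359.NewRow2
attribute [-instance] ProperSMul.toContinuousSMul IsTopologicalTorsor.toContinuousSMul IdemSemiring.toCanonicallyOrderedAdd IdemSemiring.toMulLeftMono IdemSemiring.toMulRightMono AddQuantale.instAddLeftMono AddQuantale.instAddRightMono Quantale.instMulLeftMono Quantale.instMulRightMono FiniteDimensional.rclike_to_real IsScalarTower.complexToReal FiniteDimensional.complexToReal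

/-!
# One-sided rows: the number of fractions of the partners costs `κ ^ ε`
-/

namespace Vale.P028.NR

open Finset CF SK

variable {g : Cfg}

/-! ### The sum over the sizes -/

theorem sum_sizes_small {η X0 : ℝ} (hη : 0 < η) (hX0 : 0 < X0) (n : ℕ) {x : ℝ} (hx : 0 < x)
    (hxX : x ≤ X0) :
    ∑ s ∈ range n, (if x * sz s ≤ X0 then (x * sz s / X0) ^ η else 0) ≤
      1 / (1 - (1 / 2 : ℝ) ^ η) := by
  set ρ := (1 / 2 : ℝ) ^ η with hρ
  have hρ0 : 0 < ρ := Real.rpow_pos_of_pos (by norm_num) _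
  have hρ1 : ρ < 1 := Real.rpow_lt_one (by norm_num) (by norm_num) hη
  have h1 : ∀ s ∈ range n, (if x * sz s ≤ X0 then (x * sz s / X0) ^ η else 0) ≤ ρ ^ s := by
    intro s _
    have h1 : (x * sz s / X0) ^ η ≤ ρ ^ s := by
      have h2 : x * sz s / X0 ≤ (1 / 2) ^ s := by
        unfold sz
        rw [div_le_iff₀ hX0]
        have : (0 : ℝ) < (1 / 2) ^ s := by positivity
        nlinarith
      calc (x * sz s / X0) ^ η ≤ ((1 / 2 : ℝ) ^ s) ^ η :=
            Real.rpow_le_rpow (by have := sz_pos s; positivity) h2 hη.le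
        _ = ρ ^ s := by
            rw [hρ, ← Real.rpow_natCast, ← Real.rpow_natCast, ← Real.rpow_mul (by norm_num),
              ← Real.rpow_mul (by norm_num), mul_comm]
    split_ifs
    · exact h1
    · positivity
  refine (sum_le_sum h1).trans ?_
  have h2 : (∑ s ∈ range n, ρ ^ s) * (1 - ρ) = 1 - ρ ^ n := by
    have := geom_sum_mul_neg ρ n
    linarith
  rw [le_div_iff₀ (by linarith), h2]
  have : 0 < ρ ^ n := pow_pos hρ0 n
  linarith

/-- the geometric sum over the sizes -/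
theorem sum_sizes {η X0 : ℝ} (hη : 0 < η) (hX0 : 0 < X0) (n : ℕ) : ∀ x : ℝ, 0 < x →
    ∑ s ∈ range n, (if x * sz s ≤ X0 then (x * sz s / X0) ^ η else 0) ≤
      1 / (1 - (1 / 2 : ℝ) ^ η) := by
  have hρ1 : (1 / 2 : ℝ) ^ η < 1 := Real.rpow_lt_one (by norm_num) (by norm_num) hη
  induction n with
  | zero =>
    intro x _
    rw [range_zero, sum_empty]
    exact div_nonneg zero_le_one (by linarith)
  | succ n ih =>
    intro x hx
    by_cases hxX : x ≤ X0
    · exact sum_sizes_small hη hX0 (n + 1) hx hxX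
    · rw [sum_range_succ']
      have h0 : (if x * sz 0 ≤ X0 then (x * sz 0 / X0) ^ η else 0) = 0 := by
        have : sz 0 = 1 := by unfold sz; simp
        rw [this, mul_one, if_neg hxX]
      rw [h0, add_zero]
      refine le_of_eq_of_le (sum_congr rfl fun s _ => ?_) (ih (x / 2) (by positivity))
      have : x * sz (s + 1) = x / 2 * sz s := by unfold sz; ring
      rw [this]

/-! ### The fractions of one class -/

theorem Kc_ψ_anti {γ ψ₁ ψ₂ : ℝ} (h1 : 0 < ψ₁) (h : ψ₁ ≤ ψ₂) (M : ℕ) (F : ℚ) :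
    PA.Kc γ ψ₂ M F ≤ PA.Kc γ ψ₁ M F := by
  unfold PA.Kc
  exact max_le_max le_rfl (div_le_div_of_nonneg_left (abs_nonneg _) h1 h)

open Classical in
/-- the number of fractions of one class of sizes -/
theorem card_fractions (hc1 : g.K.P.c0 ≤ 1 / 12) (hρ : g.K.P.ρ0 ≤ 1 / 8192) {i m s : ℕ}
    {T : Finset ℕ} {G : ℕ → ℚ} {κ c : ℝ} (hκ : 1 ≤ κ) (hc : 0 < c)
    (hψ1 : ∀ r ∈ T, ψ g r ≤ 1) (hst : ∀ r ∈ T, ∃ b, st g i r = some (G r, b))
    (hm : ∀ r ∈ T, M g i r = m) (hs : ∀ r ∈ T, siz g r = s)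
    (hK : ∀ r ∈ T, CF.KK g i r (G r) ≤ κ) :
    ((T.image G).card : ℝ) ≤ (2 * κ ^ 4) ^ (3 * c) *
      (2 + ∑ e ∈ (range (i + 1)).filter (fun e => Ex (fun t m => CF.Rg g t m) g.γ g.K.P.c0
        (2 * g.K.P.ρ0) e s m), ((CF.Rg g e m : ℝ) * sz s) ^ c +
        ∑ e ∈ range (i + 1), ∑ D ∈ DX (fun t m => CF.Rg g t m) g.γ g.K.P.c0
        (2 * g.K.P.ρ0) e s m, (if D ∣ m then (1 : ℝ) else 0)) := by
  set P : ℕ → ℕ → ℕ := fun t m => CF.Rg g t m with hPdef
  have hP : Path P := path_Rg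
  set ρb := 2 * g.K.P.ρ0 with hρbd
  have hsz := sz_pos s
  have hx : ∀ t, 0 < (P t m : ℝ) * sz s := fun t => mul_pos (by exact_mod_cast hP.pos t m) hsz
  set L := (2 * κ ^ 4) ^ (3 * c) with hL
  have hκ4 : 1 ≤ κ ^ 4 := one_le_pow₀ hκ
  have hL1 : 1 ≤ L := Real.one_le_rpow (by linarith) (by positivity)
  -- the four kinds
  set Ga := (T.image G).filter (fun G' => Rg g.γ (fun t => P t m) (sz s) i G') with hGa
  set Gb := (T.image G).filter (fun G' => ∃ e ≤ i, Exit g.γ g.K.P.c0 ρb (fun t => P t m) (sz s) e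
    G' ∧ ρb < (P e m : ℝ) * sz s) with hGb
  set Eα := (range (i + 1)).filter (fun e => Ex P g.γ g.K.P.c0 ρb e s m ∧
    ((P e m : ℝ) * sz s) ^ (-(1 / 3) : ℝ) / 2 ≤ κ ^ 4) with hEα
  set Eβ := (range (i + 1)).filter (fun e => ∃ D ∈ DX P g.γ g.K.P.c0 ρb e s m, D ∣ m) with hEβ
  have hsub : T.image G ⊆ Ga ∪ Gb ∪ Eα.image (fun e => Gx P g.γ g.K.P.c0 ρb e s m) ∪
      Eβ.image (fun e => Gx P g.γ g.K.P.c0 ρb e s m) := by
    intro G' hG'
    obtain ⟨r, hr, hrG⟩ := mem_image.1 hG'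
    obtain ⟨b, hb⟩ := hst r hr
    have hcase := cases_G hb (hψ1 r hr) hc1 hρ
    rw [hm r hr, hs r hr, hrG] at hcase
    rcases hcase with h1 | ⟨e, he, h1, h2⟩ | ⟨e, he, h1, h2, h3⟩
    · exact mem_union_left _ (mem_union_left _ (mem_union_left _ (mem_filter.2 ⟨hG', h1⟩)))
    · exact mem_union_left _ (mem_union_left _ (mem_union_right _
        (mem_filter.2 ⟨hG', e, he, h1, h2⟩)))
    · rcases h3 with h3 | h3
      · refine mem_union_left _ (mem_union_right _ (mem_image.2 ⟨e, mem_filter.2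
          ⟨mem_range.2 (by omega), h1, h3.trans ?_⟩, h2.symm⟩))
        have := hK r hr
        rw [hrG] at this
        exact pow_le_pow_left₀ (le_trans zero_le_one (PA.one_le_KK _ _ _ _)) this 4
      · exact mem_union_right _ (mem_image.2 ⟨e, mem_filter.2
          ⟨mem_range.2 (by omega), h3⟩, h2.symm⟩)
  have hcard : ((T.image G).card : ℝ) ≤ Ga.card + Gb.card + Eα.card + Eβ.card := by
    have h1 := card_le_card hsub
    have h2 : (Ga ∪ Gb ∪ Eα.image (fun e => Gx P g.γ g.K.P.c0 ρb e s m) ∪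
      Eβ.image (fun e => Gx P g.γ g.K.P.c0 ρb e s m)).card ≤
        Ga.card + Gb.card + Eα.card + Eβ.card := by
      refine (card_union_le _ _).trans (Nat.add_le_add ((card_union_le _ _).trans
        (Nat.add_le_add (card_union_le _ _) card_image_le)) card_image_le)
    exact_mod_cast h1.trans h2
  have hGa1 : (Ga.card : ℝ) ≤ 1 := by
    have : Ga.card ≤ 1 := by
      rw [card_le_one]
      intro a ha b hb
      exact Rg.unique hsz (hP.pos i m) (mem_filter.1 ha).2 (mem_filter.1 hb).2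
    exact_mod_cast this
  have hGb1 : (Gb.card : ℝ) ≤ 1 := by
    have : Gb.card ≤ 1 := by
      rw [card_le_one]
      intro a ha b hb
      obtain ⟨-, e1, -, h1, h1'⟩ := mem_filter.1 ha
      obtain ⟨-, e2, -, h2, h2'⟩ := mem_filter.1 hb
      rcases lt_trichotomy e1 e2 with h | h | h
      · exact absurd (Exit.small hsz (fun t => hP.pos t m) (fun t => hP.dvd t m) h1 h2 h)
          (not_le.2 h1')
      · subst h
        exact Exit.unique hsz (fun t => hP.pos t m) h1 h2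
      · exact absurd (Exit.small hsz (fun t => hP.pos t m) (fun t => hP.dvd t m) h2 h1 h)
          (not_le.2 h2')
    exact_mod_cast this
  have hEα1 : (Eα.card : ℝ) ≤ L * ∑ e ∈ (range (i + 1)).filter (fun e => Ex P g.γ g.K.P.c0
        ρb e s m), ((P e m : ℝ) * sz s) ^ c := by
    rw [mul_sum, card_eq_sum_ones]
    push_cast
    calc ∑ e ∈ Eα, (1 : ℝ) ≤ ∑ e ∈ Eα, L * ((P e m : ℝ) * sz s) ^ c := by
          refine sum_le_sum fun e he => ?_
          obtain ⟨-, -, h1⟩ := mem_filter.1 he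
          have h2 : ((P e m : ℝ) * sz s) ^ (-(1 / 3) : ℝ) ≤ 2 * κ ^ 4 := by linarith
          have hy := hx e
          have h3 : 1 ≤ (2 * κ ^ 4) * ((P e m : ℝ) * sz s) ^ (1 / 3 : ℝ) := by
            have h4 : 0 < ((P e m : ℝ) * sz s) ^ (1 / 3 : ℝ) := Real.rpow_pos_of_pos hy _
            have h5 : ((P e m : ℝ) * sz s) ^ (-(1 / 3) : ℝ) *
                ((P e m : ℝ) * sz s) ^ (1 / 3 : ℝ) = 1 := by
              rw [← Real.rpow_add hy]
              norm_num
            calc (1 : ℝ) = _ := h5.symm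
              _ ≤ _ := mul_le_mul_of_nonneg_right h2 h4.le
          have h6 : 1 ≤ ((2 * κ ^ 4) * ((P e m : ℝ) * sz s) ^ (1 / 3 : ℝ)) ^ (3 * c) :=
            Real.one_le_rpow h3 (by positivity)
          rwa [Real.mul_rpow (by positivity) (Real.rpow_nonneg hy.le _), ← Real.rpow_mul hy.le,
            show (1 / 3 : ℝ) * (3 * c) = c by ring] at h6
      _ ≤ ∑ e ∈ (range (i + 1)).filter (fun e => Ex P g.γ g.K.P.c0
        ρb e s m), L * ((P e m : ℝ) * sz s) ^ c := by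
          refine sum_le_sum_of_subset_of_nonneg ?_ fun e _ _ =>
            mul_nonneg (by linarith) (Real.rpow_nonneg (hx e).le _)
          intro e he
          obtain ⟨h1, h2, -⟩ := mem_filter.1 he
          exact mem_filter.2 ⟨h1, h2⟩
  have hEβ1 : (Eβ.card : ℝ) ≤ ∑ e ∈ range (i + 1), ∑ D ∈ DX P g.γ g.K.P.c0
        ρb e s m, (if D ∣ m then (1 : ℝ) else 0) := by
    rw [card_eq_sum_ones]
    push_cast
    have hnn : ∀ e, 0 ≤ ∑ D ∈ DX P g.γ g.K.P.c0 ρb e s m, (if D ∣ m then (1 : ℝ) else 0) :=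
      fun e => sum_nonneg fun D _ => by split_ifs <;> norm_num
    calc ∑ e ∈ Eβ, (1 : ℝ) ≤ ∑ e ∈ Eβ, ∑ D ∈ DX P g.γ g.K.P.c0 ρb e s m,
            (if D ∣ m then (1 : ℝ) else 0) := by
          refine sum_le_sum fun e he => ?_
          obtain ⟨-, D, hD, hDm⟩ := mem_filter.1 he
          calc (1 : ℝ) = (if D ∣ m then (1 : ℝ) else 0) := by rw [if_pos hDm]
            _ ≤ _ := single_le_sum (f := fun D => if D ∣ m then (1 : ℝ) else 0)
                (fun D _ => by positivity) hD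
      _ ≤ _ := sum_le_sum_of_subset_of_nonneg (filter_subset _ _) fun e _ _ => hnn e
  have h1 : 0 ≤ ∑ e ∈ range (i + 1), ∑ D ∈ DX P g.γ g.K.P.c0
        ρb e s m, (if D ∣ m then (1 : ℝ) else 0) := le_trans (Nat.cast_nonneg _) hEβ1
  set Sα := ∑ e ∈ (range (i + 1)).filter (fun e => Ex P g.γ g.K.P.c0
        ρb e s m), ((P e m : ℝ) * sz s) ^ c
  set Sβ := ∑ e ∈ range (i + 1), ∑ D ∈ DX P g.γ g.K.P.c0
        ρb e s m, (if D ∣ m then (1 : ℝ) else 0)
  nlinarith

open Classical in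
/-- the sum over the partners with the same deficit outside stage `i` -/
theorem sum_fixed (hc1 : g.K.P.c0 ≤ 1 / 12) (hρ : g.K.P.ρ0 ≤ 1 / 8192) {i m n : ℕ}
    {R : Finset ℕ} {G : ℕ → ℚ} {ω : ℕ → ℝ} {A κ c : ℝ} (hκ : 2 ≤ κ) (hc : 0 < c) (hA : 0 ≤ A)
    (hω : ∀ r ∈ R, 0 ≤ ω r)
    (hψ1 : ∀ r ∈ R, ψ g r ≤ 1) (hst : ∀ r ∈ R, ∃ b, st g i r = some (G r, b))
    (hK : ∀ r ∈ R, CF.KK g i r (G r) ≤ κ) (hx : ∀ r ∈ R, PA.rho (dat g) i r ≤ κ)
    (hcl : ∀ m G', ∑ r ∈ R with M g i r = m ∧ G r = G', ω r ≤ A)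
    (hn : ∀ r ∈ R, siz g r < n) {h : ℝ → ℝ} (h0 : ∀ x, 0 ≤ h x)
    (hh : ∀ x, κ ^ (-7 : ℝ) ≤ x → x ≤ 2 * κ → 1 ≤ h x) :
    ∑ r ∈ R with M g i r = m, ω r ≤ A + A * (2 * κ ^ 4) ^ (3 * c) * ∑ s ∈ range n, h (m * sz s) *
      (2 + ∑ e ∈ (range (i + 1)).filter (fun e => Ex (fun t m => CF.Rg g t m) g.γ g.K.P.c0
        (2 * g.K.P.ρ0) e s m), ((CF.Rg g e m : ℝ) * sz s) ^ c +
        ∑ e ∈ range (i + 1), ∑ D ∈ DX (fun t m => CF.Rg g t m) g.γ g.K.P.c0
        (2 * g.K.P.ρ0) e s m, (if D ∣ m then (1 : ℝ) else 0)) := by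
  have hκ0 : 0 < κ := by linarith
  set Rm := R.filter (fun r => M g i r = m) with hRm
  have e1 : ∑ r ∈ Rm, ω r = ∑ r ∈ Rm.filter (fun r => (m : ℝ) * sz (siz g r) < κ ^ (-7 : ℝ)), ω r +
      ∑ r ∈ Rm.filter (fun r => ¬ (m : ℝ) * sz (siz g r) < κ ^ (-7 : ℝ)), ω r :=
    (sum_filter_add_sum_filter_not _ _ _).symm
  rw [e1]
  refine add_le_add ?_ ?_
  · -- small sizes: the fraction is unique
    rcases (Rm.filter (fun r => (m : ℝ) * sz (siz g r) < κ ^ (-7 : ℝ))).eq_empty_or_nonempty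
      with hE | ⟨r0, hr0⟩
    · rw [hE, sum_empty]; exact hA
    · refine le_trans (sum_le_sum_of_subset_of_nonneg ?_ ?_) (hcl m (G r0))
      · intro r hr
        obtain ⟨h1, h2⟩ := mem_filter.1 hr
        obtain ⟨h3, h4⟩ := mem_filter.1 h1
        obtain ⟨h1', h2'⟩ := mem_filter.1 hr0
        obtain ⟨h3', h4'⟩ := mem_filter.1 h1'
        refine mem_filter.2 ⟨h3, h4, ?_⟩
        have hm0 : 0 < m := by rw [← h4]; exact M_pos g i r
        have hmr : (0 : ℝ) < m := by exact_mod_cast hm0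
        have k1 : PA.Kc g.γ (psit g r) m (G r) ≤ κ := by
          have := hK r h3
          rw [← h4]
          exact this
        have k2 : PA.Kc g.γ (psit g r0) m (G r0) ≤ κ := by
          have := hK r0 h3'
          rw [← h4']
          exact this
        have p1 := psit_pos g r
        have p2 := psit_pos g r0
        set Ψ := max (psit g r) (psit g r0) with hΨ
        have hΨ0 : 0 < Ψ := lt_max_of_lt_left p1
        refine PA.Kc_unique (γ := g.γ) (κ := κ) (ψ := Ψ) hΨ0 hm0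
          ((Kc_ψ_anti p1 (le_max_left _ _) m _).trans k1)
          ((Kc_ψ_anti p2 (le_max_right _ _) m _).trans k2) ?_
        have hΨs : (m : ℝ) * Ψ < κ ^ (-7 : ℝ) := by
          rcases max_cases (psit g r) (psit g r0) with ⟨h, -⟩ | ⟨h, -⟩
          · rw [hΨ, h]
            exact lt_of_le_of_lt (mul_le_mul_of_nonneg_left (siz_le (hψ1 r h3)).1 hmr.le) h2
          · rw [hΨ, h]
            exact lt_of_le_of_lt (mul_le_mul_of_nonneg_left (siz_le (hψ1 r0 h3')).1 hmr.le) h2'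
        have e7 : κ ^ (-7 : ℝ) = (κ ^ 7)⁻¹ := by
          rw [Real.rpow_neg hκ0.le]
          norm_num
        rw [e7] at hΨs
        have h8 : κ ^ 7 * (m * Ψ) < 1 := by
          have := mul_lt_mul_of_pos_left hΨs (pow_pos hκ0 7)
          rwa [mul_inv_cancel₀ (pow_pos hκ0 7).ne'] at this
        have h9 : 2 * κ ^ 3 ≤ κ ^ 7 := by
          have : (2 : ℝ) ≤ κ ^ 4 := by
            calc (2 : ℝ) ≤ 2 ^ 4 := by norm_num
              _ ≤ κ ^ 4 := pow_le_pow_left₀ (by norm_num) hκ 4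
          calc 2 * κ ^ 3 ≤ κ ^ 4 * κ ^ 3 := mul_le_mul_of_nonneg_right this (by positivity)
            _ = κ ^ 7 := by ring
        have h10 : 0 ≤ (m : ℝ) * Ψ := by positivity
        exact lt_of_le_of_lt (mul_le_mul_of_nonneg_right h9 h10) h8
      · intro r hr _
        exact hω r (mem_filter.1 hr).1
  · set S1 := Rm.filter (fun r => ¬ (m : ℝ) * sz (siz g r) < κ ^ (-7 : ℝ)) with hS1
    have hS1R : ∀ r ∈ S1, r ∈ R ∧ M g i r = m := by
      intro r hr
      exact mem_filter.1 (mem_filter.1 hr).1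
    have hL1 : 1 ≤ (2 * κ ^ 4) ^ (3 * c) :=
      Real.one_le_rpow (by have : 1 ≤ κ ^ 4 := one_le_pow₀ (by linarith); linarith) (by positivity)
    rw [← sum_fiberwise_of_maps_to (s := S1) (t := range n) (g := fun r => siz g r)
      (fun r hr => mem_range.2 (hn r (hS1R r hr).1))]
    rw [mul_sum]
    refine sum_le_sum fun s hs => ?_
    set T := S1.filter (fun r => siz g r = s) with hT
    set Sα := ∑ e ∈ (range (i + 1)).filter (fun e => Ex (fun t m => CF.Rg g t m) g.γ g.K.P.c0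
        (2 * g.K.P.ρ0) e s m), ((CF.Rg g e m : ℝ) * sz s) ^ c with hSα
    set Sβ := ∑ e ∈ range (i + 1), ∑ D ∈ DX (fun t m => CF.Rg g t m) g.γ g.K.P.c0
        (2 * g.K.P.ρ0) e s m, (if D ∣ m then (1 : ℝ) else 0) with hSβ
    have hSα0 : 0 ≤ Sα := sum_nonneg fun e _ => Real.rpow_nonneg
      (mul_nonneg (Nat.cast_nonneg _) (sz_pos s).le) _
    have hSβ0 : 0 ≤ Sβ := sum_nonneg fun e _ => sum_nonneg fun D _ => by split_ifs <;> norm_num
    rcases T.eq_empty_or_nonempty with hE | ⟨r0, hr0⟩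
    · rw [hE, sum_empty]
      exact mul_nonneg (mul_nonneg hA (by linarith)) (mul_nonneg (h0 _) (by linarith))
    · have hh1 : 1 ≤ h ((m : ℝ) * sz s) := by
        obtain ⟨h1, h2⟩ := mem_filter.1 hr0
        obtain ⟨h3, h4⟩ := mem_filter.1 h1
        obtain ⟨h5, h6⟩ := hS1R r0 h1
        have h2' : siz g r0 = s := h2
        rw [h2'] at h4
        push Not at h4
        refine hh _ h4 ?_
        have h7 := (siz_le (hψ1 r0 h5)).2
        rw [h2'] at h7
        have h8 := hx r0 h5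
        have h9 : PA.rho (dat g) i r0 = (m : ℝ) * psit g r0 := by rw [← h6]; rfl
        rw [h9] at h8
        have hmr : (0 : ℝ) ≤ m := Nat.cast_nonneg _
        nlinarith
      have hcardT := card_fractions (g := g) hc1 hρ (i := i) (m := m) (s := s) (T := T) (G := G)
        (κ := κ) (c := c) (by linarith) hc
        (fun r hr => hψ1 r (hS1R r (mem_filter.1 hr).1).1)
        (fun r hr => hst r (hS1R r (mem_filter.1 hr).1).1)
        (fun r hr => (hS1R r (mem_filter.1 hr).1).2)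
        (fun r hr => (mem_filter.1 hr).2)
        (fun r hr => hK r (hS1R r (mem_filter.1 hr).1).1)
      rw [← hSα, ← hSβ] at hcardT
      have hsumT : ∑ r ∈ T, ω r ≤ A * ((T.image G).card : ℝ) := by
        rw [← sum_fiberwise_of_maps_to (s := T) (t := T.image G) (g := G)
          (fun r hr => mem_image_of_mem G hr)]
        calc ∑ G' ∈ T.image G, ∑ r ∈ T with G r = G', ω r ≤ ∑ G' ∈ T.image G, A := by
              refine sum_le_sum fun G' _ => ?_
              refine le_trans (sum_le_sum_of_subset_of_nonneg ?_ ?_) (hcl m G')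
              · intro r hr
                obtain ⟨h1, h2⟩ := mem_filter.1 hr
                obtain ⟨h3, h4⟩ := hS1R r (mem_filter.1 h1).1
                exact mem_filter.2 ⟨h3, h4, h2⟩
              · intro r hr _
                exact hω r (mem_filter.1 hr).1
          _ = A * ((T.image G).card : ℝ) := by rw [sum_const, nsmul_eq_mul, mul_comm]
      set L := (2 * κ ^ 4) ^ (3 * c) with hL
      calc ∑ r ∈ T, ω r ≤ A * ((T.image G).card : ℝ) := hsumT
        _ ≤ A * (L * (2 + Sα + Sβ)) := mul_le_mul_of_nonneg_left hcardT hA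
        _ = A * L * (1 * (2 + Sα + Sβ)) := by ring
        _ ≤ A * L * (h (m * sz s) * (2 + Sα + Sβ)) :=
            mul_le_mul_of_nonneg_left (mul_le_mul_of_nonneg_right hh1 (by linarith))
              (mul_nonneg hA (by linarith))

open Classical in
/-- **One-sided rows: the number of fractions of the partners costs `κ ^ ε`** (on the natural
average over the deficits outside stage `i`). -/
theorem row_fractions {ε : ℝ} (hε : 0 < ε) : ∃ C : ℝ, 0 < C ∧ ∀ g : Cfg,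
    g.K.P.c0 ≤ 1 / 12 → g.K.P.ρ0 ≤ 1 / 8192 →
    ∀ (i Q : ℕ) (R : Finset ℕ) (G : ℕ → ℚ) (ω : ℕ → ℝ) (A κ : ℝ), 0 < Q → 2 ≤ κ → 0 ≤ A →
    (∀ r ∈ R, 0 ≤ ω r) → (∀ r ∈ R, ψ g r ≤ 1) →
    (∀ r ∈ R, ∃ b, st g i r = some (G r, b)) →
    (∀ r ∈ R, M g i r ∣ Q) →
    (∀ r ∈ R, CF.KK g i r (G r) ≤ κ) →
    (∀ r ∈ R, PA.rho (dat g) i r ≤ κ) →
    (∀ m G', ∑ r ∈ R with M g i r = m ∧ G r = G', ω r ≤ A) →
    ∑ r ∈ R, wdv Q (M g i r) * ω r ≤ C * A * κ ^ ε := by
  set c : ℝ := min (ε / 100) (7 / 240) with hcd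
  set η : ℝ := min (ε / 100) (9 / 20) with hηd
  have hc : 0 < c := lt_min (by positivity) (by norm_num)
  have hη : 0 < η := lt_min (by positivity) (by norm_num)
  have hc2 : c ≤ 7 / 240 := min_le_right _ _
  have hη2 : η ≤ 9 / 20 := min_le_right _ _
  have hcε : c ≤ ε / 100 := min_le_left _ _
  have hηε : η ≤ ε / 100 := min_le_left _ _
  set β : ℝ := (1 / 4096 : ℝ) ^ c / (1 - (1 / 4096 : ℝ) ^ c) with hβ
  have hx1 : (1 / 4096 : ℝ) ^ c < 1 := Real.rpow_lt_one (by norm_num) (by norm_num) hc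
  have hx0 : 0 < (1 / 4096 : ℝ) ^ c := Real.rpow_pos_of_pos (by norm_num) _
  have hβ0 : 0 ≤ β := div_nonneg hx0.le (by linarith)
  have hy1 : (1 / 2 : ℝ) ^ η < 1 := Real.rpow_lt_one (by norm_num) (by norm_num) hη
  set W : ℝ := 1 / (1 - (1 / 2 : ℝ) ^ η) with hW
  have hW0 : 0 < W := by rw [hW]; exact div_pos one_pos (by linarith)
  refine ⟨1 + 2 * 2 * (2 + 257 * β) * W, by positivity, ?_⟩
  intro g hc1 hρ i Q R G ω A κ hQ hκ hA hω hψ1 hst hM hK hx hcl
  have hκ0 : 0 < κ := by linarith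
  have hκ1 : 1 ≤ κ := by linarith
  set n := (R.sup (fun r => siz g r)) + 1 with hn
  have hnR : ∀ r ∈ R, siz g r < n := fun r hr =>
    Nat.lt_succ_of_le (le_sup (f := fun r => siz g r) hr)
  set Y : ℝ := (2 * κ ^ 8) ^ η with hY
  have hY0 : 0 < Y := Real.rpow_pos_of_pos (by positivity) _
  set h : ℝ → ℝ := fun x => Y * (if x ≤ 2 * κ then (x / (2 * κ)) ^ η else 0) with hh
  have hh' : ∀ x, h x = Y * (if x ≤ 2 * κ then (x / (2 * κ)) ^ η else 0) := fun x => rfl
  -- for negative arguments the power may be anything, hence the positive part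
  set h' : ℝ → ℝ := fun x => h (max x 0) with hh'd
  have h0 : ∀ x, 0 ≤ h' x := by
    intro x
    have : 0 ≤ max x 0 := le_max_right _ _
    rw [hh'd]
    simp only
    rw [hh']
    refine mul_nonneg hY0.le ?_
    split_ifs
    · exact Real.rpow_nonneg (by positivity) _
    · exact le_rfl
  have hpos' : ∀ x, 0 ≤ x → h' x = h x := by
    intro x hx
    rw [hh'd]
    simp only
    rw [max_eq_left hx]
  have hone : ∀ x, κ ^ (-7 : ℝ) ≤ x → x ≤ 2 * κ → 1 ≤ h' x := by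
    intro x hx1 hx2
    have hκ7 : 0 < κ ^ (-7 : ℝ) := Real.rpow_pos_of_pos hκ0 _
    have hx0 : 0 < x := lt_of_lt_of_le hκ7 hx1
    rw [hpos' x hx0.le, hh', if_pos hx2, hY, ← Real.mul_rpow (by positivity) (by positivity)]
    refine Real.one_le_rpow ?_ hη.le
    have e7 : κ ^ (-7 : ℝ) = (κ ^ 7)⁻¹ := by
      rw [Real.rpow_neg hκ0.le]
      norm_num
    rw [e7] at hx1
    have h2 : 1 ≤ κ ^ 7 * x := by
      have := mul_le_mul_of_nonneg_left hx1 (pow_pos hκ0 7).le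
      rwa [mul_inv_cancel₀ (pow_pos hκ0 7).ne'] at this
    have h3 : 2 * κ ^ 8 * (x / (2 * κ)) = κ ^ 7 * x := by
      field_simp
    rw [h3]
    exact h2
  have hgrow : ∀ (D : ℕ) (x : ℝ), 0 < D → 0 < x → h' (D * x) ≤ (D : ℝ) ^ (9 / 20 : ℝ) * h' x := by
    intro D x hD hx
    have hDr : (1 : ℝ) ≤ D := by exact_mod_cast hD
    have hD0 : (0 : ℝ) < D := by linarith
    rw [hpos' _ hx.le, hpos' _ (by positivity), hh', hh']
    by_cases hc : (D : ℝ) * x ≤ 2 * κ
    · have hx2 : x ≤ 2 * κ := by nlinarith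
      rw [if_pos hc, if_pos hx2]
      have e1 : ((D : ℝ) * x / (2 * κ)) ^ η = (D : ℝ) ^ η * (x / (2 * κ)) ^ η := by
        rw [← Real.mul_rpow hD0.le (by positivity)]
        congr 1
        ring
      rw [e1]
      have h1 : (D : ℝ) ^ η ≤ (D : ℝ) ^ (9 / 20 : ℝ) := Real.rpow_le_rpow_of_exponent_le hDr hη2
      have h2 : 0 ≤ Y * (x / (2 * κ)) ^ η := by positivity
      nlinarith
    · rw [if_neg hc, mul_zero]
      have := h0 x
      rw [hpos' x hx.le, hh'] at this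
      positivity
  have hH : ∀ x, 0 < x → ∑ s ∈ range n, h' (x * sz s) ≤ Y * W := by
    intro x hx
    have e1 : ∀ s ∈ range n, h' (x * sz s) =
        Y * (if x * sz s ≤ 2 * κ then (x * sz s / (2 * κ)) ^ η else 0) := by
      intro s _
      rw [hpos' _ (mul_pos hx (sz_pos s)).le, hh']
    rw [sum_congr rfl e1, ← mul_sum]
    exact mul_le_mul_of_nonneg_left (sum_sizes hη (by positivity) n x hx) hY0.le
  set L := (2 * κ ^ 4) ^ (3 * c) with hL
  have hL1 : 1 ≤ L := Real.one_le_rpow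
    (by have : 1 ≤ κ ^ 4 := one_le_pow₀ (by linarith); linarith) (by positivity)
  have hfix := fun m : ℕ => sum_fixed (g := g) hc1 hρ (i := i) (m := m) (n := n) (R := R) (G := G)
    (ω := ω) (A := A) (κ := κ) (c := c) hκ hc hA hω hψ1 hst hK hx hcl hnR h0 hone
  have hρ0 := g.K.P.ρ0_pos
  have hnat := sum_nat (path_Rg (g := g)) (γ := g.γ) (c0 := g.K.P.c0) (ρb := 2 * g.K.P.ρ0)
    g.K.P.c0_pos hc1 (by linarith) (by positivity) hQ i n h0 hgrow hH hc hc2
  have e1 : ∑ r ∈ R, wdv Q (M g i r) * ω r =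
      ∑ m ∈ Q.divisors, wdv Q m * ∑ r ∈ R with M g i r = m, ω r := by
    rw [← sum_fiberwise_of_maps_to (s := R) (t := Q.divisors) (g := fun r => M g i r)
      (fun r hr => Nat.mem_divisors.2 ⟨hM r hr, hQ.ne'⟩)]
    refine sum_congr rfl fun m _ => ?_
    rw [mul_sum]
    refine sum_congr rfl fun r hr => ?_
    rw [(mem_filter.1 hr).2]
  rw [e1]
  have hsum1 : ∑ m ∈ Q.divisors, wdv Q m = 1 := wdv_sum Q hQ
  refine (sum_le_sum fun m _ => mul_le_mul_of_nonneg_left (hfix m) (wdv_nonneg _ _)).trans ?_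
  simp only [mul_add (wdv Q _)]
  rw [sum_add_distrib, ← sum_mul, hsum1, one_mul]
  have e2 : ∑ m ∈ Q.divisors, wdv Q m * (A * (2 * κ ^ 4) ^ (3 * c) * ∑ s ∈ range n, h' (m * sz s) *
      (2 + ∑ e ∈ (range (i + 1)).filter (fun e => Ex (fun t m => CF.Rg g t m) g.γ g.K.P.c0
        (2 * g.K.P.ρ0) e s m), ((CF.Rg g e m : ℝ) * sz s) ^ c +
        ∑ e ∈ range (i + 1), ∑ D ∈ DX (fun t m => CF.Rg g t m) g.γ g.K.P.c0
        (2 * g.K.P.ρ0) e s m, (if D ∣ m then (1 : ℝ) else 0))) =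
      A * L * ∑ m ∈ Q.divisors, wdv Q m * ∑ s ∈ range n, h' (m * sz s) *
      (2 + ∑ e ∈ (range (i + 1)).filter (fun e => Ex (fun t m => CF.Rg g t m) g.γ g.K.P.c0
        (2 * g.K.P.ρ0) e s m), ((CF.Rg g e m : ℝ) * sz s) ^ c +
        ∑ e ∈ range (i + 1), ∑ D ∈ DX (fun t m => CF.Rg g t m) g.γ g.K.P.c0
        (2 * g.K.P.ρ0) e s m, (if D ∣ m then (1 : ℝ) else 0)) := by
    rw [mul_sum]
    refine sum_congr rfl fun m _ => ?_
    ring
  rw [e2]
  have hB : (2 * g.K.P.ρ0) ^ c / (1 - (2 * g.K.P.ρ0) ^ c) ≤ β := by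
    have h1 : (2 * g.K.P.ρ0) ^ c ≤ (1 / 4096 : ℝ) ^ c :=
      Real.rpow_le_rpow (by positivity) (by linarith) hc.le
    rw [hβ, div_le_div_iff₀ (by linarith) (by linarith)]
    nlinarith
  have hfin : A * L * ∑ m ∈ Q.divisors, wdv Q m * ∑ s ∈ range n, h' (m * sz s) *
      (2 + ∑ e ∈ (range (i + 1)).filter (fun e => Ex (fun t m => CF.Rg g t m) g.γ g.K.P.c0
        (2 * g.K.P.ρ0) e s m), ((CF.Rg g e m : ℝ) * sz s) ^ c +
        ∑ e ∈ range (i + 1), ∑ D ∈ DX (fun t m => CF.Rg g t m) g.γ g.K.P.c0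
        (2 * g.K.P.ρ0) e s m, (if D ∣ m then (1 : ℝ) else 0)) ≤
      A * L * ((2 + 257 * β) * (Y * W)) := by
    refine mul_le_mul_of_nonneg_left (hnat.trans ?_) (mul_nonneg hA (by linarith))
    exact mul_le_mul_of_nonneg_right (by linarith) (by positivity)
  refine (add_le_add le_rfl hfin).trans ?_
  -- the powers of `κ`
  have hLκ : L ≤ 2 * κ ^ (12 * c) := by
    rw [hL, Real.mul_rpow (by norm_num) (by positivity), ← Real.rpow_natCast, ← Real.rpow_mul hκ0.le]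
    have h1 : (2 : ℝ) ^ (3 * c) ≤ 2 := by
      calc (2 : ℝ) ^ (3 * c) ≤ 2 ^ (1 : ℝ) :=
            Real.rpow_le_rpow_of_exponent_le (by norm_num) (by linarith)
        _ = 2 := Real.rpow_one 2
    have h2 : κ ^ (((4 : ℕ) : ℝ) * (3 * c)) = κ ^ (12 * c) := by
      congr 1
      push_cast
      ring
    rw [h2]
    exact mul_le_mul_of_nonneg_right h1 (Real.rpow_nonneg hκ0.le _)
  have hYκ : Y ≤ 2 * κ ^ (8 * η) := by
    rw [hY, Real.mul_rpow (by norm_num) (by positivity), ← Real.rpow_natCast, ← Real.rpow_mul hκ0.le]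
    have h1 : (2 : ℝ) ^ η ≤ 2 := by
      calc (2 : ℝ) ^ η ≤ 2 ^ (1 : ℝ) :=
            Real.rpow_le_rpow_of_exponent_le (by norm_num) (by linarith)
        _ = 2 := Real.rpow_one 2
    have h2 : κ ^ (((8 : ℕ) : ℝ) * η) = κ ^ (8 * η) := by
      congr 1
    rw [h2]
    exact mul_le_mul_of_nonneg_right h1 (Real.rpow_nonneg hκ0.le _)
  have hκε : κ ^ (12 * c) * κ ^ (8 * η) ≤ κ ^ ε := by
    rw [← Real.rpow_add hκ0]
    exact Real.rpow_le_rpow_of_exponent_le hκ1 (by linarith)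
  have hκε1 : 1 ≤ κ ^ ε := Real.one_le_rpow hκ1 hε.le
  have h1 : L * Y ≤ 2 * 2 * κ ^ ε := by
    calc L * Y ≤ (2 * κ ^ (12 * c)) * (2 * κ ^ (8 * η)) :=
          mul_le_mul hLκ hYκ hY0.le (by positivity)
      _ = 2 * 2 * (κ ^ (12 * c) * κ ^ (8 * η)) := by ring
      _ ≤ 2 * 2 * κ ^ ε := by linarith
  calc A + A * L * ((2 + 257 * β) * (Y * W)) = A * 1 + A * ((2 + 257 * β) * W) * (L * Y) := by ring
    _ ≤ A * κ ^ ε + A * ((2 + 257 * β) * W) * (2 * 2 * κ ^ ε) :=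
        add_le_add (mul_le_mul_of_nonneg_left hκε1 hA)
          (mul_le_mul_of_nonneg_left h1 (by positivity))
    _ = (1 + 2 * 2 * (2 + 257 * β) * W) * A * κ ^ ε := by ring

end Vale.P028.NR
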